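import Vale.Agent.P073.Main

/-! Diffeomorphic approximation of Sobolev maps of the cube with Jacobian in a convex class. -/

open MeasureTheory Set Vale.Agent.P073

namespace Vale.Agent.Results.P073.ConvexClassApprox

theorem result :
    (∀ (n : ℕ) (p : ENNReal), 1 ≤ p → p ≠ ⊤ →
      ∀ (f : (Fin n → ℝ) → Fin n → ℝ) (D : (Fin n → ℝ) → Fin n → Fin n → ℝ)
        (K : Set (Fin n → Fin n → ℝ)),
      ContinuousOn f (Set.Icc 0 1) →
      (∀ x ∈ Set.Icc (0 : Fin n → ℝ) 1, ∀ i, (x i = 0 → f x i = 0) ∧ (x i = 1 → f x i = 1)) →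
      (∀ i j, MemLp (fun x => D x i j) p (volume.restrict (cube n))) →
      (∀ i, IsWeakGrad (cube n) (fun x => f x i) (fun x => D x i)) →
      Convex ℝ K → IsClosed K →
      (∀ M ∈ K, ∀ s : Fin n → ℝ, (∀ i, s i = 1 ∨ s i = -1) →
        (fun i j => s i * s j * M i j) ∈ K) →
      (∀ M ∈ K, ∀ ε : ℝ, 0 < ε →
        (Matrix.of M + ε • (1 : Matrix (Fin n) (Fin n) ℝ)).det ≠ 0) →
      (∀ᵐ x ∂volume.restrict (cube n), D x ∈ K) →
      IsDiffeoApproximable p f D) ∧
    (∀ (n : ℕ) (p : ENNReal), 1 ≤ p → p ≠ ⊤ →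
      ∀ (f : (Fin n → ℝ) → Fin n → ℝ) (D : (Fin n → ℝ) → Fin n → Fin n → ℝ),
      ContinuousOn f (Set.Icc 0 1) →
      (∀ x ∈ Set.Icc (0 : Fin n → ℝ) 1, ∀ i, (x i = 0 → f x i = 0) ∧ (x i = 1 → f x i = 1)) →
      (∀ i j, MemLp (fun x => D x i j) p (volume.restrict (cube n))) →
      (∀ i, IsWeakGrad (cube n) (fun x => f x i) (fun x => D x i)) →
      (∀ᵐ x ∂volume.restrict (cube n), ∀ v : Fin n → ℝ, 0 ≤ ∑ i, ∑ j, v i * D x i j * v j) →
      IsDiffeoApproximable p f D) := by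
  refine ⟨fun n p hp1 hp f D K hf hface hD hw hconv hclosed hsymm hdet hDK =>
    approximable hp1 hp hf hface hD hw hconv hclosed hsymm hdet hDK,
    fun n p hp1 hp f D hf hface hD hw hpos => ?_⟩
  refine approximable (K := {M | ∀ v : Fin n → ℝ, 0 ≤ ∑ i, ∑ j, v i * M i j * v j})
    hp1 hp hf hface hD hw ?_ ?_ ?_ ?_ hpos
  · intro A hA B hB a b ha hb _ v
    have h := add_nonneg (mul_nonneg ha (hA v)) (mul_nonneg hb (hB v))
    refine h.trans (le_of_eq ?_)
    simp only [Finset.mul_sum, ← Finset.sum_add_distrib, Pi.add_apply, Pi.smul_apply, smul_eq_mul]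
    exact Finset.sum_congr rfl fun i _ => Finset.sum_congr rfl fun j _ => by ring
  · rw [show {M : Fin n → Fin n → ℝ | ∀ v : Fin n → ℝ, 0 ≤ ∑ i, ∑ j, v i * M i j * v j} =
      ⋂ v : Fin n → ℝ, {M | 0 ≤ ∑ i, ∑ j, v i * M i j * v j} by ext M; simp]
    exact isClosed_iInter fun v => isClosed_le continuous_const (by fun_prop)
  · intro M hM s _ v
    refine (hM fun i => s i * v i).trans (le_of_eq ?_)
    exact Finset.sum_congr rfl fun i _ => Finset.sum_congr rfl fun j _ => by ring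
  · intro M hM ε hε hdet
    obtain ⟨v, hv, hv0⟩ := Matrix.exists_mulVec_eq_zero_iff.2 hdet
    have hq : ∀ i, ∑ j, M i j * v j + ε * v i = 0 := fun i => by
      have := congrFun hv0 i
      rw [Matrix.add_mulVec, Matrix.smul_mulVec, Matrix.one_mulVec] at this
      simpa [Matrix.mulVec, dotProduct] using this
    have hsum : ∑ i, v i * (∑ j, M i j * v j + ε * v i) = 0 := by simp [hq]
    have e : ∑ i, v i * (∑ j, M i j * v j + ε * v i) =
        ∑ i, ∑ j, v i * M i j * v j + ε * ∑ i, v i * v i := by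
      rw [Finset.mul_sum, ← Finset.sum_add_distrib]
      refine Finset.sum_congr rfl fun i _ => ?_
      rw [mul_add, Finset.mul_sum]
      congr 1
      · exact Finset.sum_congr rfl fun j _ => by ring
      · ring
    rw [e] at hsum
    have h1 := hM v
    have h2 : ∑ i, v i * v i = 0 := by
      have : 0 ≤ ∑ i, v i * v i := Finset.sum_nonneg fun i _ => mul_self_nonneg (v i)
      nlinarith
    refine hv (funext fun i => ?_)
    exact mul_self_eq_zero.1
      ((Finset.sum_eq_zero_iff_of_nonneg fun k _ => mul_self_nonneg (v k)).1 h2 i (Finset.mem_univ i))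

end Vale.Agent.Results.P073.ConvexClassApprox
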